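import Mathlib

/-!
# P340: the conjecture reduces to specifications with finitely many sorts

Pure type systems in de Bruijn form. A weakly normalizing system that is not strongly
normalizing yields one whose sorts are `Fin n`.
-/

namespace Vale.Agent.Results.P340.FiniteSpecs

/-- Expressions over a set of sorts, de Bruijn indices. -/
inductive PTerm (S : Type) : Type where
  | var : ℕ → PTerm S
  | sort : S → PTerm S
  | app : PTerm S → PTerm S → PTerm S
  | lam : PTerm S → PTerm S → PTerm S
  | pi : PTerm S → PTerm S → PTerm S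

namespace PTerm

variable {S S' : Type}

/-- Shift the free indices `≥ k` up by one. -/
def lift : PTerm S → ℕ → PTerm S
  | var i, k => if i < k then var i else var (i + 1)
  | sort s, _ => sort s
  | app a b, k => app (lift a k) (lift b k)
  | lam a b, k => lam (lift a k) (lift b (k + 1))
  | pi a b, k => pi (lift a k) (lift b (k + 1))

/-- Substitute `N` for index `k`, lowering the indices above `k` by one. -/
def subst : PTerm S → ℕ → PTerm S → PTerm S
  | var i, k, N => if i < k then var i else if i = k then N else var (i - 1)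
  | sort s, _, _ => sort s
  | app a b, k, N => app (subst a k N) (subst b k N)
  | lam a b, k, N => lam (subst a k N) (subst b (k + 1) (lift N 0))
  | pi a b, k, N => pi (subst a k N) (subst b (k + 1) (lift N 0))

/-- Rename sorts. -/
def map (f : S → S') : PTerm S → PTerm S'
  | var i => var i
  | sort s => sort (f s)
  | app a b => app (map f a) (map f b)
  | lam a b => lam (map f a) (map f b)
  | pi a b => pi (map f a) (map f b)

/-- One beta step, anywhere in the expression. -/
inductive Step : PTerm S → PTerm S → Prop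
  | beta (A M N : PTerm S) : Step (app (lam A M) N) (subst M 0 N)
  | appL {a a' : PTerm S} (b : PTerm S) : Step a a' → Step (app a b) (app a' b)
  | appR (a : PTerm S) {b b' : PTerm S} : Step b b' → Step (app a b) (app a b')
  | lamL {a a' : PTerm S} (b : PTerm S) : Step a a' → Step (lam a b) (lam a' b)
  | lamR (a : PTerm S) {b b' : PTerm S} : Step b b' → Step (lam a b) (lam a b')
  | piL {a a' : PTerm S} (b : PTerm S) : Step a a' → Step (pi a b) (pi a' b)
  | piR (a : PTerm S) {b b' : PTerm S} : Step b b' → Step (pi a b) (pi a b')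

theorem map_lift (f : S → S') (t : PTerm S) : ∀ k, map f (lift t k) = lift (map f t) k := by
  induction t with
  | var i => intro k; simp only [lift, map]; split <;> rfl
  | sort s => intro k; rfl
  | app a b iha ihb => intro k; simp [lift, map, iha, ihb]
  | lam a b iha ihb => intro k; simp [lift, map, iha, ihb]
  | pi a b iha ihb => intro k; simp [lift, map, iha, ihb]

theorem map_subst (f : S → S') (t : PTerm S) :
    ∀ k N, map f (subst t k N) = subst (map f t) k (map f N) := by
  induction t with
  | var i =>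
    intro k N
    simp only [subst, map]
    split
    · rfl
    · split <;> rfl
  | sort s => intro k N; rfl
  | app a b iha ihb => intro k N; simp [subst, map, iha, ihb]
  | lam a b iha ihb => intro k N; simp [subst, map, iha, ihb, map_lift]
  | pi a b iha ihb => intro k N; simp [subst, map, iha, ihb, map_lift]

theorem step_map (f : S → S') {a b : PTerm S} (h : Step a b) : Step (map f a) (map f b) := by
  induction h with
  | beta A M N => rw [map_subst]; exact Step.beta _ _ _
  | appL b _ ih => exact Step.appL _ ih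
  | appR a _ ih => exact Step.appR _ ih
  | lamL b _ ih => exact Step.lamL _ ih
  | lamR a _ ih => exact Step.lamR _ ih
  | piL b _ ih => exact Step.piL _ ih
  | piR a _ ih => exact Step.piR _ ih

/-- Steps never look at sorts, so they reflect along any renaming. -/
theorem step_reflect (f : S → S') (t : PTerm S) :
    ∀ u, Step (map f t) u → ∃ t', Step t t' ∧ map f t' = u := by
  induction t with
  | var i => intro u h; cases h
  | sort s => intro u h; cases h
  | app a b iha ihb =>
    intro u h
    cases a with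
    | lam A M =>
      cases h with
      | beta => exact ⟨_, Step.beta A M b, map_subst f M 0 b⟩
      | appL _ h =>
        obtain ⟨t', h1, h2⟩ := iha _ h
        exact ⟨_, Step.appL b h1, by rw [← h2]; rfl⟩
      | appR _ h =>
        obtain ⟨t', h1, h2⟩ := ihb _ h
        exact ⟨_, Step.appR _ h1, by rw [← h2]; rfl⟩
    | var _ | sort _ | app _ _ | pi _ _ =>
      cases h with
      | appL _ h =>
        obtain ⟨t', h1, h2⟩ := iha _ h
        exact ⟨_, Step.appL b h1, by rw [← h2]; rfl⟩
      | appR _ h =>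
        obtain ⟨t', h1, h2⟩ := ihb _ h
        exact ⟨_, Step.appR _ h1, by rw [← h2]; rfl⟩
  | lam a b iha ihb =>
    intro u h
    cases h with
    | lamL _ h =>
      obtain ⟨t', h1, h2⟩ := iha _ h
      exact ⟨_, Step.lamL b h1, by rw [← h2]; rfl⟩
    | lamR _ h =>
      obtain ⟨t', h1, h2⟩ := ihb _ h
      exact ⟨_, Step.lamR a h1, by rw [← h2]; rfl⟩
  | pi a b iha ihb =>
    intro u h
    cases h with
    | piL _ h =>
      obtain ⟨t', h1, h2⟩ := iha _ h
      exact ⟨_, Step.piL b h1, by rw [← h2]; rfl⟩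
    | piR _ h =>
      obtain ⟨t', h1, h2⟩ := ihb _ h
      exact ⟨_, Step.piR a h1, by rw [← h2]; rfl⟩

theorem steps_reflect (f : S → S') (t : PTerm S) {u : PTerm S'}
    (h : Relation.ReflTransGen Step (map f t) u) :
    ∃ t', Relation.ReflTransGen Step t t' ∧ map f t' = u := by
  induction h with
  | refl => exact ⟨t, Relation.ReflTransGen.refl, rfl⟩
  | tail _ hs ih =>
    obtain ⟨t', h1, h2⟩ := ih
    subst h2
    obtain ⟨t'', h3, h4⟩ := step_reflect f t' _ hs
    exact ⟨t'', h1.tail h3, h4⟩

theorem eqvGen_map (f : S → S') {a b : PTerm S} (h : Relation.EqvGen Step a b) :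
    Relation.EqvGen Step (map f a) (map f b) := by
  induction h with
  | rel a b h => exact Relation.EqvGen.rel _ _ (step_map f h)
  | refl a => exact Relation.EqvGen.refl _
  | symm a b _ ih => exact Relation.EqvGen.symm _ _ ih
  | trans a b c _ _ ih1 ih2 => exact Relation.EqvGen.trans _ _ _ ih1 ih2

end PTerm

open PTerm

/-- The typing judgment; the head of the context is the variable declared last. -/
inductive Typing {S : Type} (A : S → S → Prop) (R : S → S → S → Prop) :
    List (PTerm S) → PTerm S → PTerm S → Prop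
  | ax {s t : S} : A s t → Typing A R [] (sort s) (sort t)
  | var {Γ : List (PTerm S)} {T : PTerm S} {s : S} :
      Typing A R Γ T (sort s) → Typing A R (T :: Γ) (var 0) (lift T 0)
  | weak {Γ : List (PTerm S)} {M B T : PTerm S} {s : S} :
      Typing A R Γ M B → Typing A R Γ T (sort s) → Typing A R (T :: Γ) (lift M 0) (lift B 0)
  | prod {Γ : List (PTerm S)} {T B : PTerm S} {s₁ s₂ s₃ : S} :
      Typing A R Γ T (sort s₁) → Typing A R (T :: Γ) B (sort s₂) → R s₁ s₂ s₃ →
      Typing A R Γ (pi T B) (sort s₃)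
  | abs {Γ : List (PTerm S)} {T M B : PTerm S} {s : S} :
      Typing A R (T :: Γ) M B → Typing A R Γ (pi T B) (sort s) →
      Typing A R Γ (lam T M) (pi T B)
  | appl {Γ : List (PTerm S)} {M N T B : PTerm S} :
      Typing A R Γ M (pi T B) → Typing A R Γ N T → Typing A R Γ (app M N) (subst B 0 N)
  | conv {Γ : List (PTerm S)} {M T B : PTerm S} {s : S} :
      Typing A R Γ M T → Typing A R Γ B (sort s) → Relation.EqvGen Step T B →
      Typing A R Γ M B

/-- Subject or type of a derivable judgment. -/
def Legal {S : Type} (A : S → S → Prop) (R : S → S → S → Prop) (t : PTerm S) : Prop :=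
  ∃ Γ B, Typing A R Γ t B ∨ Typing A R Γ B t

/-- Every legal expression reduces to a normal form. -/
def WeaklyNormalizing {S : Type} (A : S → S → Prop) (R : S → S → S → Prop) : Prop :=
  ∀ t, Legal A R t → ∃ u, Relation.ReflTransGen Step t u ∧ ∀ v, ¬ Step u v

/-- No legal expression starts an infinite reduction sequence. -/
def StronglyNormalizing {S : Type} (A : S → S → Prop) (R : S → S → S → Prop) : Prop :=
  ∀ t, Legal A R t → ¬ ∃ f : ℕ → PTerm S, f 0 = t ∧ ∀ n, Step (f n) (f (n + 1))

variable {S S' : Type} {A : S → S → Prop} {R : S → S → S → Prop}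

theorem Typing.transfer (g : S → S') {A' : S' → S' → Prop} {R' : S' → S' → S' → Prop}
    (hA : ∀ s t, A s t → A' (g s) (g t)) (hR : ∀ a b c, R a b c → R' (g a) (g b) (g c))
    {Γ : List (PTerm S)} {M B : PTerm S} (h : Typing A R Γ M B) :
    Typing A' R' (Γ.map (PTerm.map g)) (PTerm.map g M) (PTerm.map g B) := by
  induction h with
  | ax h => exact Typing.ax (hA _ _ h)
  | var _ ih =>
    rw [map_lift]
    exact Typing.var ih
  | weak _ _ ih1 ih2 =>
    rw [map_lift, map_lift]
    exact Typing.weak ih1 ih2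
  | prod _ _ h ih1 ih2 => exact Typing.prod ih1 ih2 (hR _ _ _ h)
  | abs _ _ ih1 ih2 => exact Typing.abs ih1 ih2
  | appl _ _ ih1 ih2 =>
    rw [map_subst]
    exact Typing.appl ih1 ih2
  | conv _ _ h ih1 ih2 => exact Typing.conv ih1 ih2 (eqvGen_map g h)

/-- A derivation uses axioms and rules on finitely many sorts only. -/
theorem Typing.finite_support {Γ : List (PTerm S)} {M B : PTerm S} (h : Typing A R Γ M B) :
    ∃ T : Set S, T.Finite ∧ T.Nonempty ∧ ∀ T' : Set S, T ⊆ T' →
      Typing (fun s t => A s t ∧ s ∈ T' ∧ t ∈ T')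
        (fun a b c => R a b c ∧ a ∈ T' ∧ b ∈ T' ∧ c ∈ T') Γ M B := by
  induction h with
  | @ax s t h =>
    exact ⟨{s, t}, by simp, ⟨s, by simp⟩,
      fun T' hT => Typing.ax ⟨h, hT (by simp), hT (by simp)⟩⟩
  | var _ ih =>
    obtain ⟨T, h1, h2, h3⟩ := ih
    exact ⟨T, h1, h2, fun T' hT => Typing.var (h3 T' hT)⟩
  | weak _ _ ih1 ih2 =>
    obtain ⟨T, h1, h2, h3⟩ := ih1
    obtain ⟨U, k1, _, k3⟩ := ih2
    exact ⟨T ∪ U, h1.union k1, h2.mono Set.subset_union_left, fun T' hT =>
      Typing.weak (h3 T' (Set.subset_union_left.trans hT))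
        (k3 T' (Set.subset_union_right.trans hT))⟩
  | @prod _ _ _ a b c _ _ h ih1 ih2 =>
    obtain ⟨T, h1, h2, h3⟩ := ih1
    obtain ⟨U, k1, _, k3⟩ := ih2
    refine ⟨T ∪ U ∪ {a, b, c}, (h1.union k1).union (by simp), ?_, fun T' hT => ?_⟩
    · exact h2.mono (Set.subset_union_left.trans Set.subset_union_left)
    · exact Typing.prod (h3 T' fun x hx => hT (Or.inl (Or.inl hx)))
        (k3 T' fun x hx => hT (Or.inl (Or.inr hx)))
        ⟨h, hT (Or.inr (by simp)), hT (Or.inr (by simp)), hT (Or.inr (by simp))⟩
  | abs _ _ ih1 ih2 =>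
    obtain ⟨T, h1, h2, h3⟩ := ih1
    obtain ⟨U, k1, _, k3⟩ := ih2
    exact ⟨T ∪ U, h1.union k1, h2.mono Set.subset_union_left, fun T' hT =>
      Typing.abs (h3 T' (Set.subset_union_left.trans hT))
        (k3 T' (Set.subset_union_right.trans hT))⟩
  | appl _ _ ih1 ih2 =>
    obtain ⟨T, h1, h2, h3⟩ := ih1
    obtain ⟨U, k1, _, k3⟩ := ih2
    exact ⟨T ∪ U, h1.union k1, h2.mono Set.subset_union_left, fun T' hT =>
      Typing.appl (h3 T' (Set.subset_union_left.trans hT))
        (k3 T' (Set.subset_union_right.trans hT))⟩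
  | conv _ _ h ih1 ih2 =>
    obtain ⟨T, h1, h2, h3⟩ := ih1
    obtain ⟨U, k1, _, k3⟩ := ih2
    exact ⟨T ∪ U, h1.union k1, h2.mono Set.subset_union_left, fun T' hT =>
      Typing.conv (h3 T' (Set.subset_union_left.trans hT))
        (k3 T' (Set.subset_union_right.trans hT)) h⟩

/-- The conjecture for all specifications follows from the one for sorts `Fin n`. -/
theorem of_fin
    (H : ∀ (n : ℕ) (A : Fin n → Fin n → Prop) (R : Fin n → Fin n → Fin n → Prop),
      WeaklyNormalizing A R → StronglyNormalizing A R)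
    (hwn : WeaklyNormalizing A R) : StronglyNormalizing A R := by
  classical
  rintro t ⟨Γ, B, hd⟩ ⟨f, hf0, hf⟩
  obtain ⟨T, hfin, hne, hT⟩ : ∃ T : Set S, T.Finite ∧ T.Nonempty ∧
      Legal (fun s u => A s u ∧ s ∈ T ∧ u ∈ T)
        (fun a b c => R a b c ∧ a ∈ T ∧ b ∈ T ∧ c ∈ T) t := by
    rcases hd with hd | hd
    · obtain ⟨T, h1, h2, h3⟩ := hd.finite_support
      exact ⟨T, h1, h2, Γ, B, Or.inl (h3 T subset_rfl)⟩
    · obtain ⟨T, h1, h2, h3⟩ := hd.finite_support
      exact ⟨T, h1, h2, Γ, B, Or.inr (h3 T subset_rfl)⟩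
  have : Fintype T := hfin.fintype
  have : Nonempty T := hne.to_subtype
  set e := Fintype.equivFin T
  set back : Fin (Fintype.card T) → S := fun i => (e.symm i : S)
  set fwd : S → Fin (Fintype.card T) :=
    fun s => if h : s ∈ T then e ⟨s, h⟩ else e (Classical.arbitrary T)
  have hbf : ∀ s ∈ T, back (fwd s) = s := by
    intro s hs
    simp [back, fwd, hs]
  set A' : Fin (Fintype.card T) → Fin (Fintype.card T) → Prop := fun i j => A (back i) (back j)
  set R' : Fin (Fintype.card T) → Fin (Fintype.card T) → Fin (Fintype.card T) → Prop :=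
    fun i j k => R (back i) (back j) (back k)
  have hwn' : WeaklyNormalizing A' R' := by
    rintro u ⟨Δ, C, hu⟩
    have hl : Legal A R (PTerm.map back u) := by
      rcases hu with hu | hu
      · exact ⟨_, _, Or.inl (hu.transfer back (fun _ _ h => h) (fun _ _ _ h => h))⟩
      · exact ⟨_, _, Or.inr (hu.transfer back (fun _ _ h => h) (fun _ _ _ h => h))⟩
    obtain ⟨w, hw, hnf⟩ := hwn _ hl
    obtain ⟨w', hw', rfl⟩ := steps_reflect back u hw
    exact ⟨w', hw', fun v hv => hnf _ (step_map back hv)⟩
  have hlegal : Legal A' R' (PTerm.map fwd t) := by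
    have hA : ∀ s u, A s u ∧ s ∈ T ∧ u ∈ T → A' (fwd s) (fwd u) := by
      rintro s u ⟨h, hs, hu⟩
      simp only [A', hbf s hs, hbf u hu, h]
    have hR : ∀ a b c, R a b c ∧ a ∈ T ∧ b ∈ T ∧ c ∈ T → R' (fwd a) (fwd b) (fwd c) := by
      rintro a b c ⟨h, ha, hb, hc⟩
      simp only [R', hbf a ha, hbf b hb, hbf c hc, h]
    obtain ⟨Δ, C, hu⟩ := hT
    rcases hu with hu | hu
    · exact ⟨_, _, Or.inl (hu.transfer fwd hA hR)⟩
    · exact ⟨_, _, Or.inr (hu.transfer fwd hA hR)⟩
  exact H _ A' R' hwn' _ hlegal
    ⟨fun n => PTerm.map fwd (f n), by simp [hf0], fun n => step_map fwd (hf n)⟩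

/-- The conjecture holds iff it holds for every specification whose sorts are `Fin n`. -/
theorem result :
    (∀ (S : Type) (A : S → S → Prop) (R : S → S → S → Prop),
        WeaklyNormalizing A R → StronglyNormalizing A R) ↔
      (∀ (n : ℕ) (A : Fin n → Fin n → Prop) (R : Fin n → Fin n → Fin n → Prop),
        WeaklyNormalizing A R → StronglyNormalizing A R) :=
  ⟨fun h n => h (Fin n), fun h _ _ _ hwn => of_fin h hwn⟩

end Vale.Agent.Results.P340.FiniteSpecs
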